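import Crest.Agent.X262.Coh.Basic

/-!
# Row 262, road B (helper52): Kuenneth with types, KILL

* `IsProj`, `KUNP` : projective spaces, the Kuenneth formula for `Y × P ^ n`;
* `AA C X`         : the span of the classes of type `(p, p)`; `Kl C ω` : `ω` kills the classes of
  type `(p, p)`, `p > 0`;
* `kun`            : `fst^* ω * a = fst^* ω * f (h)` on `X × P ^ n`;
* `kill`           : `ζ^* ω * a = ζ^* ω * (ρ (λ) + σ (λ) G)` on the master space.
-/

set_option autoImplicit false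

noncomputable section

namespace Crest.Agent.X262.Kill52

open Crest.Agent.X277 Crest.Agent.X277.Lef Crest.Agent.X277.AN.G1 Crest.Agent.X262.Coh Polynomial

/-- `X` is a projective space with its standard coordinates -/
def IsProj (X : SV) : Prop :=
  ∀ (m : ℕ) (q : MvPolynomial (Fin (X.P.N + 1)) ℂ), q.IsHomogeneous m →
    MvPolynomial.aeval X.P.y q = 0 → q = 0

variable (C : Th)

/-- the Kuenneth formula for the product with a projective space -/
def KUNP : Prop :=
  ∀ X Y : SV, IsProj X → ∀ z : C.H (Y.prod X),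
    z ∈ Submodule.span ℂ {z | ∃ a b, z = C.pb (fst Y X) a * C.pb (snd Y X) b}

/-- the span of the classes of type `(p, p)` -/
def AA (X : SV) : Submodule ℂ (C.H X) := ⨆ p, C.typ X p p

/-- the span of the classes of type `(p, q)`, `p ≠ q` -/
def Off (X : SV) : Submodule ℂ (C.H X) :=
  ⨆ pq ∈ {pq : ℕ × ℕ | pq.1 ≠ pq.2}, C.typ X pq.1 pq.2

/-- `ω` kills the classes of type `(p, p)`, `p > 0` -/
def Kl {X : SV} (ω : C.H X) : Prop := ∀ p, 0 < p → ∀ a ∈ C.typ X p p, ω * a = 0

variable {C} {X Y : SV}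

theorem mem_AA {p : ℕ} {a : C.H X} (h : a ∈ C.typ X p p) : a ∈ AA C X :=
  Submodule.mem_iSup_of_mem p h

theorem mem_Off {p q : ℕ} (hpq : p ≠ q) {a : C.H X} (h : a ∈ C.typ X p q) : a ∈ Off C X :=
  Submodule.mem_iSup_of_mem (p, q) (Submodule.mem_iSup_of_mem hpq h)

theorem AA_ind {p : C.H X → Prop} (h0 : p 0) (h1 : ∀ i, ∀ a ∈ C.typ X i i, p a)
    (h2 : ∀ a b, p a → p b → p (a + b)) {a : C.H X} (ha : a ∈ AA C X) : p a :=
  Submodule.iSup_induction (fun i => C.typ X i i) (motive := p) ha h1 h0 h2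

section Typ

variable (hT : C.TYP)
include hT

theorem disjoint_AA (X : SV) : Disjoint (AA C X) (Off C X) := by
  refine ((hT.int X).submodule_iSupIndep.disjoint_biSup_biSup (s := {pq : ℕ × ℕ | pq.1 = pq.2})
    (t := {pq : ℕ × ℕ | pq.1 ≠ pq.2}) (Set.disjoint_left.2 fun _ h h' => h' h)).mono_left ?_
  exact iSup_le fun p => le_iSup₂_of_le (p, p) rfl le_rfl

theorem AA_mul {a b : C.H X} (ha : a ∈ AA C X) (hb : b ∈ AA C X) : a * b ∈ AA C X :=
  AA_ind (p := fun a => a * b ∈ AA C X) (by simp) (fun i a ha =>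
    AA_ind (p := fun b => a * b ∈ AA C X) (by simp) (fun j b hb => mem_AA (hT.mul X ha hb))
      (fun b b' h h' => by rw [mul_add]; exact add_mem h h') hb)
    (fun a a' h h' => by rw [add_mul]; exact add_mem h h') ha

theorem AA_pb (μ : Hom X Y) {a : C.H Y} (ha : a ∈ AA C Y) : C.pb μ a ∈ AA C X :=
  AA_ind (p := fun a => C.pb μ a ∈ AA C X) (by simp) (fun i a ha => mem_AA (hT.pb μ a ha))
    (fun a a' h h' => by rw [map_add]; exact add_mem h h') ha

theorem hc_AA (X : SV) : C.hc X ∈ AA C X := mem_AA (hT.c1 X _ BD.Br.oP_mem)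

variable (hM : C.MAN) (hP : C.PD)
include hM hP

theorem one_AA (X : SV) : (1 : C.H X) ∈ AA C X := mem_AA (hT.one_mem hM hP X)

/-- `AA` as a subalgebra -/
def AAs (X : SV) : Subalgebra ℂ (C.H X) :=
  (AA C X).toSubalgebra (one_AA hT hM hP X) fun _ _ => AA_mul hT


theorem AA_pow {a : C.H X} (ha : a ∈ AA C X) (n : ℕ) : a ^ n ∈ AA C X :=
  (AAs hT hM hP X).pow_mem ha n

theorem aeval_AA {a : C.H X} (ha : a ∈ AA C X) (f : ℂ[X]) : aeval a f ∈ AA C X := by
  induction f using Polynomial.induction_on' with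
  | add p q hp hq => rw [map_add]; exact add_mem hp hq
  | monomial n c =>
    rw [aeval_monomial, ← Algebra.smul_def]
    exact Submodule.smul_mem _ _ (AA_pow hT hM hP ha n)

theorem AA_push {μ : Hom X Y} (h : X.dim = Y.dim) {a : C.H X} (ha : a ∈ AA C X) :
    C.push μ a ∈ AA C Y :=
  AA_ind (p := fun a => C.push μ a ∈ AA C Y) (by simp)
    (fun i a ha => mem_AA (hT.push_typ hM hP μ (p' := i) (q' := i) (by omega) (by omega) ha))
    (fun a a' h h' => by rw [map_add]; exact add_mem h h') ha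

end Typ

theorem kl31 (hT : C.TYP) (hd : X.dim = 4) (h42 : C.typ X 4 2 = ⊥) {ω : C.H X}
    (h : ω ∈ C.typ X 3 1) : Kl C ω := fun p hp a ha => by
  have h1 := hT.mul X h ha
  rcases (show p = 1 ∨ 1 < p by omega) with rfl | h2
  · rwa [h42, Submodule.mem_bot] at h1
  · rwa [hT.gt X _ (by omega), Submodule.mem_bot] at h1

theorem Kl.cj (hM : C.MAN) (hT : C.TYP) {ω : C.H X} (h : Kl C ω) : Kl C (C.cj X ω) :=
  fun p hp a ha => by rw [← hM.cj_cj X a, ← map_mul, h p hp _ (hT.cj X a ha), map_zero]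


section Kun

variable (hM : C.MAN) (hP : C.PD) (hT : C.TYP) (hN : C.PN) (hK : KUNP C)
include hM hP hT

omit hP in
/-- a class of type `(p, p)` is a scalar modulo the annihilator of `ω` -/
theorem scal {a : C.H X} (ha : a ∈ AA C X) : ∃ c : ℂ, ∀ ω, Kl C ω → ω * a = c • ω := by
  refine AA_ind (p := fun a => ∃ c : ℂ, ∀ ω, Kl C ω → ω * a = c • ω) ⟨0, by simp⟩
    (fun i a ha => ?_) ?_ ha
  · rcases Nat.eq_zero_or_pos i with rfl | hi
    · obtain ⟨c, rfl⟩ := hM.dg_zero X a (hT.le X rfl ha)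
      exact ⟨c, fun ω _ => by rw [mul_comm, ← Algebra.smul_def]⟩
    · exact ⟨0, fun ω h => by rw [h i hi a ha, zero_smul]⟩
  · rintro a b ⟨c, h⟩ ⟨c', h'⟩
    exact ⟨c + c', fun ω hω => by rw [mul_add, h ω hω, h' ω hω, add_smul]⟩

include hN hK

/-- **Kuenneth with types**: the coefficients of a class of type `(p, p)` -/
theorem kun_AA {P : SV} (hP' : IsProj P) {z : C.H (X.prod P)} (hz : z ∈ AA C (X.prod P)) :
    z ∈ Submodule.span ℂ {z | ∃ a ∈ AA C X, ∃ k : ℕ,
      z = C.pb (fst X P) a * C.pb (snd X P) (C.hc P) ^ k} := by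
  set W := Submodule.span ℂ {z | ∃ a ∈ AA C X, ∃ k : ℕ,
      z = C.pb (fst X P) a * C.pb (snd X P) (C.hc P) ^ k}
  have hW : W ≤ AA C (X.prod P) := Submodule.span_le.2 (by
    rintro _ ⟨a, ha, k, rfl⟩
    exact AA_mul hT (AA_pb hT _ ha) (AA_pow hT hM hP (AA_pb hT _ (hc_AA hT P)) k))
  have h1 : z ∈ W ⊔ Off C (X.prod P) := by
    refine Submodule.span_le.2 ?_ (hK P X hP' z)
    rintro _ ⟨a, b, rfl⟩
    refine hM.ind (p := fun b => C.pb (fst X P) a * C.pb (snd X P) b ∈ W ⊔ Off C (X.prod P))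
      (by simp) (fun k b hb => ?_)
      (fun b b' h h' => by rw [map_add, mul_add]; exact add_mem h h') b
    rw [hN P hP' k, Submodule.mem_span_singleton] at hb
    obtain ⟨c, rfl⟩ := hb
    rw [map_smul, mul_smul_comm, map_pow]
    refine Submodule.smul_mem _ c (hT.ind (p := fun a =>
      C.pb (fst X P) a * C.pb (snd X P) (C.hc P) ^ k ∈ W ⊔ Off C (X.prod P)) (by simp)
      (fun i j a ha => ?_) (fun a a' h h' => by rw [map_add, add_mul]; exact add_mem h h') a)
    rcases eq_or_ne i j with rfl | hij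
    · exact Submodule.mem_sup_left (Submodule.subset_span ⟨a, mem_AA ha, k, rfl⟩)
    · refine Submodule.mem_sup_right (mem_Off (p := i + k) (q := j + k) (by omega)
        (hT.mul _ (hT.pb _ a ha) ?_))
      rw [← map_pow]
      exact hT.pb _ _ (hT.hc_pow hM hP P k)
  obtain ⟨w, hw, y, hy, rfl⟩ := Submodule.mem_sup.1 h1
  have h2 : y ∈ AA C (X.prod P) := by simpa using sub_mem hz (hW hw)
  rw [Submodule.disjoint_def.1 (disjoint_AA hT _) y h2 hy, add_zero]
  exact hw

theorem kun {P : SV} (hP' : IsProj P) {z : C.H (X.prod P)} (hz : z ∈ AA C (X.prod P)) :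
    ∃ f : ℂ[X], ∀ ω, Kl C ω →
      C.pb (fst X P) ω * z = C.pb (fst X P) ω * aeval (C.pb (snd X P) (C.hc P)) f := by
  have h := kun_AA hM hP hT hN hK hP' hz
  clear hz
  induction h using Submodule.span_induction with
  | mem z hz =>
    obtain ⟨a, ha, k, rfl⟩ := hz
    obtain ⟨c, hc⟩ := scal hM hT ha
    refine ⟨monomial k c, fun ω hω => ?_⟩
    rw [← mul_assoc, ← map_mul, hc ω hω, map_smul, aeval_monomial, ← Algebra.smul_def,
      smul_mul_assoc, mul_smul_comm]
  | zero => exact ⟨0, by simp⟩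
  | add z z' _ _ h h' =>
    obtain ⟨f, h⟩ := h
    obtain ⟨f', h'⟩ := h'
    exact ⟨f + f', fun ω hω => by rw [mul_add, h ω hω, h' ω hω, map_add, mul_add]⟩
  | smul c z _ h =>
    obtain ⟨f, h⟩ := h
    exact ⟨c • f, fun ω hω => by rw [mul_smul_comm, h ω hω, map_smul, mul_smul_comm]⟩

omit hM hP hT hN hK in
theorem aeval_of_sq {H : Type*} [CommRing H] [Algebra ℂ H] {l G : H} (h : G * G = l * G)
    (f : ℂ[X]) : aeval G f = algebraMap ℂ H (f.coeff 0) + aeval l f.divX * G := by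
  have h1 : ∀ g : ℂ[X], aeval G g * G = aeval l g * G := fun g => by
    induction g using Polynomial.induction_on' with
    | add p q hp hq => rw [map_add, map_add, add_mul, add_mul, hp, hq]
    | monomial n c =>
      rw [aeval_monomial, aeval_monomial, mul_assoc, mul_assoc]
      congr 1
      induction n with
      | zero => simp
      | succ n ih => rw [pow_succ, mul_assoc, h, mul_left_comm, ih, pow_succ]; ring
  conv_lhs => rw [← f.divX_mul_X_add, map_add, map_mul, aeval_X, aeval_C, h1, add_comm]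

/-- **KILL.** `(ζ, g) : B → Y × P` is birational, `i` is the end which is contracted, `J` is any
condition which forces the vanishing on the other exceptional loci (`fact` is FACT 1). -/
theorem kill {B S P Ym : SV} (hS : IsProj S) (hP' : IsProj P) (ζ : Hom B Y) (s : Hom B S)
    (g : Hom B P) (hb : Bim (pair ζ g)) (h : Hom Ym Y) (i : Hom (Ym.prod S) B)
    (h1 : ∀ x, ζ.map (i.map x) = h.map ((fst Ym S).map x))
    (h2 : ∀ x, s.map (i.map x) = (snd Ym S).map x)
    (sq : C.pb g (C.hc P) * C.pb g (C.hc P) = C.pb s (C.hc S) * C.pb g (C.hc P))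
    {J : C.H B → Prop} (hJ : ∀ x a, J x → J (x * a))
    (fact : ∀ x, J x → C.pb i x = 0 → x = C.pb (pair ζ g) (C.push (pair ζ g) x))
    {a : C.H B} (ha : a ∈ AA C B) : ∃ ρ σ : ℂ[X], ∀ ω, Kl C ω → Kl C (C.pb h ω) → J (C.pb ζ ω) →
      C.pb ζ ω * a = C.pb ζ ω *
        (aeval (C.pb s (C.hc S)) ρ + aeval (C.pb s (C.hc S)) σ * C.pb g (C.hc P)) := by
  have e1 : ∀ x, (fst Y P).map ((pair ζ g).map x) = ζ.map x := fun x => by
    rw [Cns.pair_map, Cns.fst_mk]
  have e2 : ∀ x, (snd Y P).map ((pair ζ g).map x) = g.map x := fun x => by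
    rw [Cns.pair_map, Cns.snd_mk]
  obtain ⟨f, hf⟩ := kun hM hP hT hN hK hS (AA_pb hT i ha)
  have ha' : a - aeval (C.pb s (C.hc S)) f ∈ AA C B :=
    sub_mem ha (aeval_AA hT hM hP (AA_pb hT s (hc_AA hT S)) f)
  obtain ⟨f', hf'⟩ := kun hM hP hT hN hK hP' (AA_push hT hM hP (μ := pair ζ g) hb.dim_eq ha')
  refine ⟨f + Polynomial.C (f'.coeff 0), f'.divX, fun ω k1 k2 k3 => ?_⟩
  have e3 := fact _ (hJ _ (a - aeval (C.pb s (C.hc S)) f) k3) (by
    rw [map_mul, map_sub, hM.pb_sq h1, mul_sub, hf _ k2, ← aeval_algHom_apply, hM.pb_tri h2,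
      sub_self])
  rw [← hM.pb_tri e1, hP.push_proj', hf' ω k1, map_mul, hM.pb_tri e1, ← aeval_algHom_apply,
    hM.pb_tri e2, aeval_of_sq sq] at e3
  rw [map_add, aeval_C]
  linear_combination e3

end Kun

end Crest.Agent.X262.Kill52
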